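import Vale.Agent.P088.R2.H464.EP.Root
import Vale.Agent.P088.R2.H238.C.Geo
import Vale.Agent.P088.R2.H676.F.CdC

/-!
# P088, stage 3, zone B1: the matrix of a cell

`M Mᵀ = s₁(p₀)`, `N = M⁻¹`.
-/

open Set Filter
open scoped ContDiff Topology Matrix

noncomputable section

namespace Vale.Agent.P088.R2.H591.B1

open Vale.Agent.P088.LR Vale.Agent.P088.HY
open Vale.Agent.P088.R2.H31.EP
open Vale.Agent.P088.R2.H238.C
open Vale.Agent.P088.R2.H657.W

variable {n : ℕ} {q : Cst} {d : Pk n} {p0 : V n} {M N : Matrix (Fin n) (Fin n) ℝ}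

/-! ## Forms -/

theorem sq_one (w : V n) :
    HY.sq w = ∑ i, ∑ j, (1 : Matrix (Fin n) (Fin n) ℝ) i j * w i * w j := by
  unfold HY.sq
  refine Finset.sum_congr rfl fun i _ => ?_
  simp only [Matrix.one_apply, ite_mul, one_mul, zero_mul, Finset.sum_ite_eq,
    Finset.mem_univ, if_true]
  ring

/-- A form near the identity. -/
theorem form_dev {S : Matrix (Fin n) (Fin n) ℝ} {e : ℝ} (he : 0 ≤ e)
    (h : ∀ i j, |S i j - (1 : Matrix (Fin n) (Fin n) ℝ) i j| ≤ e) (w : V n) :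
    |(∑ i, ∑ j, S i j * w i * w j) - HY.sq w| ≤ n * e * HY.sq w := by
  have hs : HY.sq w = ∑ i, w i ^ 2 := rfl
  rw [sq_one w, ← Finset.sum_sub_distrib, ← sq_one w]
  have h2 : ∀ i, (∑ j, S i j * w i * w j) -
      ∑ j, (1 : Matrix (Fin n) (Fin n) ℝ) i j * w i * w j =
      ∑ j, (S i j - (1 : Matrix (Fin n) (Fin n) ℝ) i j) * w i * w j := by
    intro i
    rw [← Finset.sum_sub_distrib]
    exact Finset.sum_congr rfl fun j _ => by ring
  simp only [h2]
  calc |∑ i, ∑ j, (S i j - (1 : Matrix (Fin n) (Fin n) ℝ) i j) * w i * w j|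
      ≤ ∑ i, ∑ j, e * (|w i| * |w j|) := by
        refine (Finset.abs_sum_le_sum_abs _ _).trans (Finset.sum_le_sum fun i _ => ?_)
        refine (Finset.abs_sum_le_sum_abs _ _).trans (Finset.sum_le_sum fun j _ => ?_)
        rw [abs_mul, abs_mul, mul_assoc]
        exact mul_le_mul_of_nonneg_right (h i j) (by positivity)
    _ = e * (∑ i, |w i|) ^ 2 := by
        rw [_root_.sq, Finset.sum_mul_sum, Finset.mul_sum]
        refine Finset.sum_congr rfl fun i _ => ?_
        rw [Finset.mul_sum]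
    _ ≤ e * (n * ∑ i, |w i| ^ 2) := by
        refine mul_le_mul_of_nonneg_left ?_ he
        have := sq_sum_le_card_mul_sum_sq (s := Finset.univ) (f := fun i => |w i|)
        simpa using this
    _ = n * e * HY.sq w := by
        rw [hs]
        simp only [sq_abs]
        ring

/-- `|Mᵀ w|²`. -/
theorem tr_form (M : Matrix (Fin n) (Fin n) ℝ) (w : V n) :
    ∑ i, (∑ k, w k * M k i) ^ 2 = ∑ i, ∑ j, (M * Mᵀ) i j * w i * w j := by
  have e1 : ∀ i, (∑ k, w k * M k i) ^ 2 = ∑ k, ∑ l, M k i * M l i * w k * w l := by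
    intro i
    rw [_root_.sq, Finset.sum_mul_sum]
    exact Finset.sum_congr rfl fun k _ => Finset.sum_congr rfl fun l _ => by ring
  simp only [e1]
  rw [Finset.sum_comm]
  refine Finset.sum_congr rfl fun k _ => ?_
  rw [Finset.sum_comm]
  refine Finset.sum_congr rfl fun l _ => ?_
  rw [Matrix.mul_apply, Finset.sum_mul, Finset.sum_mul]
  exact Finset.sum_congr rfl fun i _ => by rw [Matrix.transpose_apply]

/-- The transpose has the same norm. -/
theorem dual {c : ℝ} (hc : 0 ≤ c)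
    (h : ∀ w : V n, ∑ i, (∑ k, w k * M k i) ^ 2 ≤ c * HY.sq w) (x : V n) :
    ∑ k, (∑ i, M k i * x i) ^ 2 ≤ c * HY.sq x := by
  set v : V n := fun k => ∑ i, M k i * x i with hv
  set X := ∑ k, v k ^ 2 with hX
  have hX0 : 0 ≤ X := Finset.sum_nonneg fun _ _ => sq_nonneg _
  have hx0 : 0 ≤ HY.sq x := Finset.sum_nonneg fun _ _ => sq_nonneg _
  have e1 : X = ∑ i, x i * ∑ k, v k * M k i := by
    rw [hX]
    have : ∀ k, v k ^ 2 = ∑ i, x i * (v k * M k i) := fun k => by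
      rw [_root_.sq]
      nth_rewrite 2 [hv]
      rw [Finset.mul_sum]
      exact Finset.sum_congr rfl fun i _ => by ring
    simp only [this, Finset.mul_sum]
    exact Finset.sum_comm
  have e2 : X ^ 2 ≤ HY.sq x * (c * X) := by
    have h1 := Finset.sum_mul_sq_le_sq_mul_sq Finset.univ x fun i => ∑ k, v k * M k i
    rw [← e1] at h1
    exact h1.trans (mul_le_mul_of_nonneg_left (h v) hx0)
  show X ≤ c * HY.sq x
  rcases hX0.eq_or_lt with h0 | h0
  · rw [← h0]; positivity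
  · have : X * X ≤ c * HY.sq x * X := by nlinarith
    exact le_of_mul_le_mul_right this h0

/-! ## The constants -/

/-- The thresholds. -/
structure Tm (n : ℕ) (q : Cst) : Prop extends Te n q where
  nE : n * q.ε ≤ 1 / 100

theorem EvC.tm (n : ℕ) : EvC (Tm n) := by
  have key : ∀ c : ℝ, 0 ≤ c → ∀ b : ℝ, 0 < b → ∀ᶠ t in sml, c * t ≤ b := by
    intro c hc b hb
    filter_upwards [sml_pos, sml_le (a := b / (c + 1)) (by positivity)] with t h1 h2
    rw [le_div_iff₀ (by positivity)] at h2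
    nlinarith
  have h1 := EvC.at_ε (fun _ t => (n : ℝ) * t ≤ 1 / 100)
    (fun _ => key n (Nat.cast_nonneg n) (1 / 100) (by norm_num))
  exact ((EvC.te n).and h1).mono fun q h => ⟨h.1, h.2⟩

/-! ## The matrices -/

/-- The matrices of a cell. -/
structure Fm (q : Cst) (d : Pk n) (p0 : V n) (M N : Matrix (Fin n) (Fin n) ℝ) : Prop where
  nm : N * M = 1
  mm : M * Mᵀ = d.s₁ p0

theorem s_one (h : PkOk q d) (x : V n) (i j : Fin n) :
    |d.s₁ x i j - (1 : Matrix (Fin n) (Fin n) ℝ) i j| ≤ q.ε := by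
  have := h.rg.cl₁ i j 0 (Nat.zero_le _) x
  simpa using this

theorem g_one (h : PkOk q d) (T : Th q) (E : Te n q) (x : V n) (i j : Fin n) :
    |gi d.s₁ x i j - (1 : Matrix (Fin n) (Fin n) ℝ) i j| ≤ cG n 12 * q.ε := by
  have := (gi_TR h T E).cl i j 0 (Nat.zero_le _) x
  simpa using this

/-- The form of `s₁`. -/
theorem s_form (h : PkOk q d) (E : Tm n q) (x w : V n) :
    99 / 100 * HY.sq w ≤ ∑ i, ∑ j, d.s₁ x i j * w i * w j ∧
    ∑ i, ∑ j, d.s₁ x i j * w i * w j ≤ 101 / 100 * HY.sq w := by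
  have h1 := abs_le.1 (form_dev E.ε0.le (s_one h x) w)
  have h2 : 0 ≤ HY.sq w := Finset.sum_nonneg fun _ _ => sq_nonneg _
  have h3 := mul_le_mul_of_nonneg_right E.nE h2
  constructor <;> linarith [h1.1, h1.2]

/-- The form of the metric. -/
theorem g_form (h : PkOk q d) (T : Th q) (E : Te n q) (x w : V n) :
    99 / 100 * HY.sq w ≤ ∑ i, ∑ j, gi d.s₁ x i j * w i * w j ∧
    ∑ i, ∑ j, gi d.s₁ x i j * w i * w j ≤ 101 / 100 * HY.sq w := by
  have h1 := abs_le.1 (form_dev (mul_nonneg (cG_nn n 12) E.ε0.le) (g_one h T E x) w)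
  have h2 : 0 ≤ HY.sq w := Finset.sum_nonneg fun _ _ => sq_nonneg _
  have h3 := mul_le_mul_of_nonneg_right E.gε h2
  constructor <;> linarith [h1.1, h1.2]

/-- **Existence.** -/
theorem mat_ex (h : PkOk q d) (E : Tm n q) (p0 : V n) :
    ∃ M N : Matrix (Fin n) (Fin n) ℝ, Fm q d p0 M N := by
  have hsy : ∀ i j, d.s₁ p0 i j = d.s₁ p0 j i := fun i j => by
    have := h.rg.sy₁ p0
    exact (congrFun (congrFun this i) j).symm
  have hp : ∀ v : V n, (1 / 2) ^ 2 * H464.Cu.dt v v ≤ H464.Cu.bf (d.s₁ p0) v v := by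
    intro v
    have h1 := (s_form h E p0 v).1
    have h2 : 0 ≤ HY.sq v := Finset.sum_nonneg fun _ _ => sq_nonneg _
    have e1 : H464.Cu.dt v v = HY.sq v :=
      Finset.sum_congr rfl fun i _ => (_root_.sq (v i)).symm
    have e2 : H464.Cu.bf (d.s₁ p0) v v = ∑ i, ∑ j, d.s₁ p0 i j * v i * v j := by
      unfold H464.Cu.bf
      exact Finset.sum_congr rfl fun i _ => Finset.sum_congr rfl fun j _ => by ring
    rw [e1, e2]
    linarith
  obtain ⟨F, fs, ff, fp⟩ := H464.Cu.root hsy hp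
  have hT : Fᵀ = F := by
    ext i j
    exact fs j i
  have hU : IsUnit F.det := by
    rw [← Matrix.isUnit_iff_isUnit_det]
    refine Matrix.mulVec_injective_iff_isUnit.1 fun x y hxy => ?_
    have h1 : F *ᵥ (x - y) = 0 := by
      rw [Matrix.mulVec_sub]
      exact sub_eq_zero.2 hxy
    have h2 := fp (x - y)
    have h3 : H464.Cu.bf F (x - y) (x - y) = (x - y) ⬝ᵥ (F *ᵥ (x - y)) := by
      unfold H464.Cu.bf
      simp only [dotProduct, Matrix.mulVec, Finset.mul_sum]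
      exact Finset.sum_congr rfl fun i _ => Finset.sum_congr rfl fun j _ => by ring
    rw [h3, h1, dotProduct_zero] at h2
    have h4 : ∑ i, (x - y) i * (x - y) i ≤ 0 := by
      have : H464.Cu.dt (x - y) (x - y) = ∑ i, (x - y) i * (x - y) i := rfl
      linarith
    have h5 := (Finset.sum_eq_zero_iff_of_nonneg
      (fun i _ => mul_self_nonneg ((x - y) i))).1 (le_antisymm h4
        (Finset.sum_nonneg fun i _ => mul_self_nonneg ((x - y) i)))
    funext i
    have h6 := h5 i (Finset.mem_univ i)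
    have h7 := mul_self_eq_zero.1 h6
    have h8 : x i - y i = 0 := h7
    linarith
  exact ⟨F, F⁻¹, Matrix.nonsing_inv_mul F hU, by rw [hT]; exact ff⟩

namespace Fm

theorem mn (f : Fm q d p0 M N) : M * N = 1 := _root_.mul_eq_one_comm.1 f.nm

/-- `|Mᵀ w|²` is the form of `s₁(p₀)`. -/
theorem m_eq (f : Fm q d p0 M N) (w : V n) :
    ∑ i, (∑ k, w k * M k i) ^ 2 = ∑ i, ∑ j, d.s₁ p0 i j * w i * w j := by
  rw [tr_form, f.mm]

theorem m_lo (f : Fm q d p0 M N) (h : PkOk q d) (E : Tm n q) (w : V n) :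
    98 / 100 * HY.sq w ≤ ∑ i, (∑ k, w k * M k i) ^ 2 := by
  rw [f.m_eq]
  have h2 : 0 ≤ HY.sq w := Finset.sum_nonneg fun _ _ => sq_nonneg _
  linarith [(s_form h E p0 w).1]

theorem m_up (f : Fm q d p0 M N) (h : PkOk q d) (E : Tm n q) (w : V n) :
    ∑ i, (∑ k, w k * M k i) ^ 2 ≤ 102 / 100 * HY.sq w := by
  rw [f.m_eq]
  have h2 : 0 ≤ HY.sq w := Finset.sum_nonneg fun _ _ => sq_nonneg _
  linarith [(s_form h E p0 w).2]

/-- `|M x|²`. -/
theorem m_up' (f : Fm q d p0 M N) (h : PkOk q d) (E : Tm n q) (x : V n) :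
    ∑ k, (∑ i, M k i * x i) ^ 2 ≤ 102 / 100 * HY.sq x :=
  dual (by norm_num) (f.m_up h E) x

theorem col_le (f : Fm q d p0 M N) (h : PkOk q d) (E : Tm n q) (i : Fin n) :
    HY.sq (M.col i) ≤ 102 / 100 := by
  have h1 := f.m_up' h E (Pi.single i 1)
  have e1 : ∀ k, ∑ j, M k j * (Pi.single i 1 : V n) j = M k i := fun k => by
    simp [Pi.single_apply]
  have e2 : HY.sq (Pi.single i 1 : V n) = 1 := by
    unfold HY.sq
    simp [Pi.single_apply]
  simp only [e1, e2] at h1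
  have e3 : HY.sq (M.col i) = ∑ k, M k i ^ 2 := rfl
  linarith

/-- The inner products of the columns. -/
theorem col_mul (f : Fm q d p0 M N) (h : PkOk q d) (E : Tm n q) (i j : Fin n) :
    |∑ k, M.col i k * M.col j k| ≤ 102 / 100 := by
  have h1 := f.col_le h E i
  have h2 := f.col_le h E j
  have h3 := Finset.sum_mul_sq_le_sq_mul_sq Finset.univ (fun k => M.col i k)
    fun k => M.col j k
  have a0 : 0 ≤ HY.sq (M.col i) := Finset.sum_nonneg fun _ _ => sq_nonneg _
  have b0 : 0 ≤ HY.sq (M.col j) := Finset.sum_nonneg fun _ _ => sq_nonneg _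
  refine abs_le_of_sq_le_sq ?_ (by norm_num)
  calc (∑ k, M.col i k * M.col j k) ^ 2 ≤ HY.sq (M.col i) * HY.sq (M.col j) := h3
    _ ≤ 102 / 100 * (102 / 100) := mul_le_mul h1 h2 b0 (by norm_num)
    _ = (102 / 100) ^ 2 := by ring

/-- `Nᵀ N` is the metric at `p₀`. -/
theorem nn_eq (f : Fm q d p0 M N) : Nᵀ * N = gi d.s₁ p0 := by
  have h1 : Nᵀ * N * (M * Mᵀ) = 1 := by
    calc Nᵀ * N * (M * Mᵀ) = Nᵀ * (N * M) * Mᵀ := by simp only [Matrix.mul_assoc]
      _ = (M * N)ᵀ := by rw [f.nm, Matrix.mul_one, Matrix.transpose_mul]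
      _ = 1 := by rw [f.mn, Matrix.transpose_one]
  rw [f.mm] at h1
  exact (Matrix.inv_eq_left_inv h1).symm

/-- `|N x|²` is the form of the metric at `p₀`. -/
theorem n_eq (f : Fm q d p0 M N) (x : V n) :
    ∑ i, (∑ k, N i k * x k) ^ 2 = ∑ i, ∑ j, gi d.s₁ p0 i j * x i * x j := by
  have h1 := tr_form Nᵀ x
  rw [Matrix.transpose_transpose, f.nn_eq] at h1
  rw [← h1]
  exact Finset.sum_congr rfl fun i _ => by
    rw [Finset.sum_congr rfl fun k _ => mul_comm (N i k) (x k)]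
    rfl

theorem n_lo (f : Fm q d p0 M N) (h : PkOk q d) (T : Th q) (E : Te n q) (x : V n) :
    98 / 100 * HY.sq x ≤ ∑ i, (∑ k, N i k * x k) ^ 2 := by
  rw [f.n_eq]
  have h2 : 0 ≤ HY.sq x := Finset.sum_nonneg fun _ _ => sq_nonneg _
  linarith [(g_form h T E p0 x).1]

theorem n_up (f : Fm q d p0 M N) (h : PkOk q d) (T : Th q) (E : Te n q) (x : V n) :
    ∑ i, (∑ k, N i k * x k) ^ 2 ≤ 102 / 100 * HY.sq x := by
  rw [f.n_eq]
  have h2 : 0 ≤ HY.sq x := Finset.sum_nonneg fun _ _ => sq_nonneg _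
  linarith [(g_form h T E p0 x).2]

/-- `|Nᵀ x|²`. -/
theorem n_up' (f : Fm q d p0 M N) (h : PkOk q d) (T : Th q) (E : Te n q) (x : V n) :
    ∑ j, (∑ i, N i j * x i) ^ 2 ≤ 102 / 100 * HY.sq x := by
  have h1 : ∀ w : V n, ∑ i, (∑ k, w k * Nᵀ k i) ^ 2 ≤ 102 / 100 * HY.sq w := by
    intro w
    refine le_trans (le_of_eq ?_) (f.n_up h T E w)
    exact Finset.sum_congr rfl fun i _ => by
      rw [Finset.sum_congr rfl fun k _ => mul_comm (N i k) (w k)]
      rfl
  exact dual (by norm_num) h1 x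

/-- **The bounds of helper676.** -/
theorem to_MN {c : H961.F.CD n} (f : Fm q d p0 c.M c.N) (h : PkOk q d) (T : Th q) (E : Tm n q) :
    H676.F.MN c where
  M x := by
    have h1 := f.m_up h E x
    have h2 : 0 ≤ HY.sq x := Finset.sum_nonneg fun _ _ => sq_nonneg _
    have e : HY.sq x = ∑ j, x j ^ 2 := rfl
    have e2 : ∑ i, (∑ j, c.M j i * x j) ^ 2 = ∑ i, (∑ k, x k * c.M k i) ^ 2 :=
      Finset.sum_congr rfl fun i _ => by
        rw [Finset.sum_congr rfl fun k _ => mul_comm (c.M k i) (x k)]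
    rw [e2, ← e]
    linarith
  N x := by
    have h1 := f.n_up' h T E.toTe x
    have h2 : 0 ≤ HY.sq x := Finset.sum_nonneg fun _ _ => sq_nonneg _
    have e : HY.sq x = ∑ j, x j ^ 2 := rfl
    rw [← e]
    linarith

end Fm

end Vale.Agent.P088.R2.H591.B1
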